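import Mathlib

/-!
P219 (for helper817): the De Giorgi iteration in one dimension.
-/

namespace Vale.Agent.P219.Co

/-- If `m` is decreasing, nonnegative, tends to zero at infinity and satisfies the differential
inequality `c m^((n-1)/n) ≤ C₁ m - C m'` in the form of difference quotients, then `m` vanishes
somewhere. -/
theorem iterate {m : ℝ → ℝ} (hm : Antitone m) (h0 : ∀ t, 0 ≤ m t)
    (hlim : Filter.Tendsto m Filter.atTop (nhds 0)) {n : ℕ} (hn : 2 ≤ n) {c C₁ C T₀ : ℝ}
    (hc : 0 < c) (hC₁ : 0 ≤ C₁) (hC : 0 < C)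
    (h : ∀ t ε : ℝ, T₀ ≤ t → 0 < ε → ε ≤ 1 →
      c * m (t + ε) ^ (((n : ℝ) - 1) / n) ≤ C₁ * m t + C / ε * (m t - m (t + ε))) :
    ∃ T, m T = 0 := by
  have hn0 : n ≠ 0 := by omega
  have hnR : (0 : ℝ) < n := by exact_mod_cast (by omega : 0 < n)
  set β : ℝ := min (c / (8 * (C₁ + 1))) (c / (8 * C)) with hβ
  have hβ0 : 0 < β := lt_min (by positivity) (by positivity)
  have hβ1 : C₁ * β ≤ c / 8 := by
    have h1 : β ≤ c / (8 * (C₁ + 1)) := min_le_left _ _
    have h2 : (C₁ + 1) * β ≤ c / 8 := by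
      calc (C₁ + 1) * β ≤ (C₁ + 1) * (c / (8 * (C₁ + 1))) := by gcongr
        _ = c / 8 := by field_simp
    nlinarith
  have hβ2 : 8 * C / c * β ≤ 1 := by
    have h1 : β ≤ c / (8 * C) := min_le_right _ _
    calc 8 * C / c * β ≤ 8 * C / c * (c / (8 * C)) := by gcongr
      _ = 1 := by field_simp
  set ρ : ℝ := (1 / 2 : ℝ) ^ ((n : ℝ)⁻¹) with hρ
  have hρ0 : 0 < ρ := by positivity
  have hρn : ρ ^ n = 1 / 2 := by
    rw [hρ]
    exact Real.rpow_inv_natCast_pow (by norm_num) hn0
  have hρ1 : ρ < 1 := Real.rpow_lt_one (by norm_num) (by norm_num) (by positivity)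
  obtain ⟨t₀, ht₀, hmt₀⟩ : ∃ t₀, T₀ ≤ t₀ ∧ m t₀ ≤ β ^ n := by
    have h1 := hlim.eventually (eventually_lt_nhds (show (0 : ℝ) < β ^ n by positivity))
    obtain ⟨t, ht, ht'⟩ := (h1.and (Filter.eventually_ge_atTop T₀)).exists
    exact ⟨t, ht', ht.le⟩
  -- the sequence of levels
  set tk : ℕ → ℝ := fun k => t₀ + 8 * C / c * β * ∑ i ∈ Finset.range k, ρ ^ i with htk
  have htk_succ : ∀ k, tk (k + 1) = tk k + 8 * C / c * (β * ρ ^ k) := by
    intro k
    simp only [htk, Finset.sum_range_succ]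
    ring
  have htk_ge : ∀ k, T₀ ≤ tk k := by
    intro k
    have : 0 ≤ 8 * C / c * β * ∑ i ∈ Finset.range k, ρ ^ i := by positivity
    simp only [htk]
    linarith
  have key : ∀ k, m (tk k) ≤ (β * ρ ^ k) ^ n := by
    intro k
    induction k with
    | zero => simpa [htk] using hmt₀
    | succ k ih =>
      by_contra hcon
      push Not at hcon
      set x : ℝ := β * ρ ^ k with hx
      have hx0 : 0 < x := by positivity
      have hρk : ρ ^ k ≤ 1 := pow_le_one₀ hρ0.le hρ1.le
      have hxβ : x ≤ β := by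
        calc x = β * ρ ^ k := rfl
          _ ≤ β * 1 := by gcongr
          _ = β := mul_one _
      have hx1 : β * ρ ^ (k + 1) = ρ * x := by rw [hx]; ring
      rw [hx1] at hcon
      have hε0 : 0 < 8 * C / c * x := by positivity
      have hε1 : 8 * C / c * x ≤ 1 := by
        refine le_trans ?_ hβ2
        gcongr
      have h1 := h (tk k) (8 * C / c * x) (htk_ge k) hε0 hε1
      rw [← htk_succ k] at h1
      have h2 : (ρ * x) ^ (n - 1) ≤ m (tk (k + 1)) ^ (((n : ℝ) - 1) / n) := by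
        have e1 : ((ρ * x) ^ n) ^ (((n : ℝ) - 1) / n) = (ρ * x) ^ (n - 1) := by
          rw [← Real.rpow_natCast (ρ * x) n, ← Real.rpow_mul (by positivity),
            ← Real.rpow_natCast (ρ * x) (n - 1)]
          congr 1
          rw [Nat.cast_sub (by omega : 1 ≤ n)]
          field_simp
          simp
        rw [← e1]
        refine Real.rpow_le_rpow (by positivity) hcon.le ?_
        have : (1 : ℝ) ≤ n := by exact_mod_cast (by omega : 1 ≤ n)
        exact div_nonneg (by linarith) hnR.le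
      have hx' : x ^ n = x * x ^ (n - 1) := by
        rw [← pow_succ']
        congr 1
        omega
      have hρ' : (1 : ℝ) / 2 ≤ ρ ^ (n - 1) := by
        rw [← hρn]
        exact pow_le_pow_of_le_one hρ0.le hρ1.le (by omega)
      have h3 : C₁ * m (tk k) ≤ c / 8 * x ^ (n - 1) := by
        calc C₁ * m (tk k) ≤ C₁ * x ^ n := by gcongr
          _ = C₁ * x * x ^ (n - 1) := by rw [hx']; ring
          _ ≤ C₁ * β * x ^ (n - 1) := by gcongr
          _ ≤ c / 8 * x ^ (n - 1) := by gcongr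
      have h4 : C / (8 * C / c * x) * (m (tk k) - m (tk (k + 1))) ≤ c / 8 * x ^ (n - 1) := by
        have e1 : C / (8 * C / c * x) = c / 8 / x := by field_simp
        rw [e1]
        calc c / 8 / x * (m (tk k) - m (tk (k + 1))) ≤ c / 8 / x * x ^ n := by
              have := h0 (tk (k + 1))
              gcongr
              linarith
          _ = c / 8 * x ^ (n - 1) := by rw [hx']; field_simp
      have h5 : c * (1 / 2 * x ^ (n - 1)) ≤ c * m (tk (k + 1)) ^ (((n : ℝ) - 1) / n) := by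
        have : (1 : ℝ) / 2 * x ^ (n - 1) ≤ (ρ * x) ^ (n - 1) := by
          rw [mul_pow ρ x (n - 1)]
          exact mul_le_mul_of_nonneg_right hρ' (by positivity)
        exact mul_le_mul_of_nonneg_left (this.trans h2) hc.le
      have hxn : 0 < x ^ (n - 1) := by positivity
      have h6 : c * (1 / 2 * x ^ (n - 1)) ≤ c / 4 * x ^ (n - 1) := by linarith
      nlinarith [mul_pos hc hxn]
  -- the limit level
  set T : ℝ := t₀ + 8 * C / c * β * (1 - ρ)⁻¹ with hT
  have hTk : ∀ k, tk k ≤ T := by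
    intro k
    have h1 : ∑ i ∈ Finset.range k, ρ ^ i ≤ (1 - ρ)⁻¹ := by
      rw [← tsum_geometric_of_lt_one hρ0.le hρ1]
      exact (summable_geometric_of_lt_one hρ0.le hρ1).sum_le_tsum _ fun i _ => by positivity
    simp only [htk, hT]
    gcongr
  refine ⟨T, le_antisymm ?_ (h0 T)⟩
  have h1 : ∀ k, m T ≤ β ^ n * (1 / 2) ^ k := by
    intro k
    have h2 := (hm (hTk k)).trans (key k)
    rwa [mul_pow, ← pow_mul, mul_comm k n, pow_mul, hρn] at h2
  have h2 : Filter.Tendsto (fun k : ℕ => β ^ n * (1 / 2 : ℝ) ^ k) Filter.atTop (nhds (β ^ n * 0)) :=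
    (tendsto_pow_atTop_nhds_zero_of_lt_one (by norm_num) (by norm_num)).const_mul _
  rw [mul_zero] at h2
  exact ge_of_tendsto' h2 h1

end Vale.Agent.P219.Co
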