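import Mathlib

/-! A sharp Lipschitz estimate from an integrated inequality (helper941 for helper817, P219). -/

open Set Filter Topology

namespace Vale.Agent.P219.Co

theorem lip_sharp {F A V : ℝ → ℝ} {C : ℝ} (hC : 0 ≤ C) (hF : AntitoneOn F (Set.Ici 0))
    (hA : Continuous A) (hA0 : ∀ r, 0 < r → 0 < A r) (hV : ∀ r, HasDerivAt V (A r) r)
    (hlip : ∀ r s, 0 < r → r ≤ s → A r * (F r - F s) ≤ C * (V s - V r))
    (h0 : ContinuousWithinAt F (Set.Ici 0) 0) :
    ∀ r s, 0 ≤ r → r ≤ s → F r - F s ≤ C * (s - r) := by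
  have key : ∀ r s, 0 < r → r < s → ∀ η : ℝ, 0 < η → F r - F s ≤ C * (1 + η) * (s - r) := by
    intro r s hr hrs η hη
    obtain ⟨x₀, hx₀, hmin⟩ := isCompact_Icc.exists_isMinOn (nonempty_Icc.2 hrs.le)
      hA.continuousOn
    have hm0 : 0 < A x₀ := hA0 _ (hr.trans_le hx₀.1)
    have hm : ∀ x ∈ Icc r s, A x₀ ≤ A x := fun x hx => hmin hx
    have huc := isCompact_Icc.uniformContinuousOn_of_continuous (hA.continuousOn (s := Icc r s))
    obtain ⟨δ, hδ, hδ'⟩ := Metric.uniformContinuousOn_iff.1 huc (η * A x₀) (mul_pos hη hm0)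
    obtain ⟨n, hn⟩ := exists_nat_gt ((s - r) / δ)
    have hn0 : (0 : ℝ) < n := lt_trans (div_pos (sub_pos.2 hrs) hδ) hn
    set h : ℝ := (s - r) / n with hh
    have hh0 : 0 < h := div_pos (sub_pos.2 hrs) hn0
    have hhn : (n : ℝ) * h = s - r := by rw [hh]; field_simp
    have hhδ : h < δ := by
      rw [div_lt_iff₀ hδ] at hn
      rw [hh, div_lt_iff₀ hn0]
      linarith
    set x : ℕ → ℝ := fun i => r + i * h with hx
    have hstep : ∀ i ∈ Finset.range n, F (x i) - F (x (i + 1)) ≤ C * (1 + η) * h := by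
      intro i hi
      have hi' : i + 1 ≤ n := Finset.mem_range.1 hi
      have hi'' : ((i : ℝ) + 1) ≤ n := by exact_mod_cast hi'
      have e1 : x (i + 1) = x i + h := by
        simp only [hx]
        push_cast
        ring
      have hi0 : (0 : ℝ) ≤ i := Nat.cast_nonneg i
      have h1 : r ≤ x i := by
        simp only [hx]
        nlinarith
      have h2 : x i + h ≤ s := by
        simp only [hx]
        nlinarith
      have hpos : 0 < x i := hr.trans_le h1
      obtain ⟨ξ, hξ, hξ'⟩ := exists_hasDerivAt_eq_slope V A (a := x i) (b := x i + h)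
        (by linarith) (fun y _ => (hV y).continuousAt.continuousWithinAt) (fun y _ => hV y)
      have e2 : V (x i + h) - V (x i) = A ξ * h := by
        rw [hξ']
        have : x i + h - x i = h := by ring
        rw [this]
        field_simp
      have hxi : x i ∈ Icc r s := ⟨h1, by linarith⟩
      have hξm : ξ ∈ Icc r s := ⟨h1.trans hξ.1.le, hξ.2.le.trans h2⟩
      have h3 := hδ' ξ hξm (x i) hxi (by
        rw [Real.dist_eq, abs_of_pos (by linarith [hξ.1])]
        linarith [hξ.2])
      rw [Real.dist_eq] at h3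
      have h4 : A ξ ≤ A (x i) * (1 + η) := by
        have := (abs_lt.1 h3).2
        nlinarith [hm _ hxi]
      have hAi : 0 < A (x i) := hA0 _ hpos
      have h5 := hlip (x i) (x i + h) hpos (by linarith)
      rw [e1]
      refine le_of_mul_le_mul_left ?_ hAi
      calc A (x i) * (F (x i) - F (x i + h)) ≤ C * (V (x i + h) - V (x i)) := h5
        _ = C * (A ξ * h) := by rw [e2]
        _ ≤ C * (A (x i) * (1 + η) * h) :=
            mul_le_mul_of_nonneg_left (mul_le_mul_of_nonneg_right h4 hh0.le) hC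
        _ = A (x i) * (C * (1 + η) * h) := by ring
    have hsum := Finset.sum_le_sum hstep
    rw [Finset.sum_range_sub' (fun i => F (x i)) n, Finset.sum_const, Finset.card_range,
      nsmul_eq_mul] at hsum
    have e0 : x 0 = r := by simp [hx]
    have en : x n = s := by
      simp only [hx]
      linarith
    rw [e0, en] at hsum
    calc F r - F s ≤ n * (C * (1 + η) * h) := hsum
      _ = C * (1 + η) * (n * h) := by ring
      _ = C * (1 + η) * (s - r) := by rw [hhn]
  have key2 : ∀ r s, 0 < r → r ≤ s → F r - F s ≤ C * (s - r) := by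
    intro r s hr hrs
    rcases hrs.eq_or_lt with rfl | hlt
    · simp
    refine le_of_forall_pos_le_add fun e he => ?_
    have h1 : 0 ≤ C * (s - r) := mul_nonneg hC (by linarith)
    have h2 := key r s hr hlt (e / (C * (s - r) + 1)) (by positivity)
    have h3 : C * (s - r) * (e / (C * (s - r) + 1)) ≤ e := by
      rw [mul_div_assoc', div_le_iff₀ (by positivity)]
      nlinarith
    nlinarith
  intro r s hr hrs
  rcases hr.eq_or_lt with rfl | hr0
  · rcases hrs.eq_or_lt with rfl | hs0
    · simp
    have hle : 𝓝[>] (0 : ℝ) ≤ 𝓝[≥] 0 := nhdsWithin_mono _ Ioi_subset_Ici_self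
    have t1 : Tendsto (fun t => F t - F s) (𝓝[>] (0 : ℝ)) (𝓝 (F 0 - F s)) :=
      (Tendsto.mono_left h0 hle).sub_const _
    have t2 : Tendsto (fun t : ℝ => C * (s - t)) (𝓝[>] (0 : ℝ)) (𝓝 (C * (s - 0))) := by
      refine Tendsto.mono_left ?_ nhdsWithin_le_nhds
      exact (continuous_const.mul (continuous_const.sub continuous_id)).tendsto 0
    refine le_of_tendsto_of_tendsto t1 t2 ?_
    filter_upwards [Ioo_mem_nhdsGT hs0] with t ht
    exact key2 t s ht.1 ht.2.le
  · exact key2 r s hr0 hrs

end Vale.Agent.P219.Co
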